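import Vale.Agent.P272.TOP.Q1

/-!
# P272: Kobayashi's canonical-ampleness conjecture

Every compact connected hyperbolic Kähler manifold of dimension `n ≥ 1` has ample canonical bundle:
for some `m ≥ 1` finitely many holomorphic sections of `K_X^m` define a holomorphic embedding of `X`
into a projective space.
-/

open scoped Manifold ContDiff ComplexOrder

namespace Vale.Agent.Results.P272.CanonicalAmple

open Vale.Agent.P272.K Vale.Agent.P272.KOD

theorem result (n : ℕ) (hn : 1 ≤ n) (X : Type) [TopologicalSpace X] [T2Space X] [CompactSpace X]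
    [ConnectedSpace X] [ChartedSpace (Cm n) X] [IsManifold 𝓘(ℂ, Cm n) ω X]
    (hX : BrodyHyperbolic n X) (w : Chart n X → Cm n → Matrix (Fin n) (Fin n) ℂ)
    (hw : IsKahler w) : AmpleCanonical n X :=
  Vale.Agent.P272.TOP.q1 n hn X hX w hw

end Vale.Agent.Results.P272.CanonicalAmple
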